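import Vale.Agent.P137.MathlibUsed

open MeasureTheory Metric
open scoped ENNReal ContDiff

namespace Vale.Agent.P137

/-- The centered maximal function: the supremum over `r > 0` of the averages of `|f|` over the
open balls `B(x, r)`, with values in `[0, ∞]`. -/
noncomputable def maximalFn {V : Type} [NormedAddCommGroup V] [MeasureSpace V]
    (f : V → ℝ) (x : V) : ℝ≥0∞ :=
  ⨆ (r : ℝ) (_ : 0 < r), (∫⁻ y in ball x r, ‖f y‖ₑ) / volume (ball x r)

/-- `g` is the weak gradient of `f`; both are locally integrable. -/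
def WeakGrad {V : Type} [NormedAddCommGroup V] [InnerProductSpace ℝ V] [MeasureSpace V]
    (f : V → ℝ) (g : V → V) : Prop :=
  LocallyIntegrable f ∧ LocallyIntegrable g ∧
    ∀ φ : V → ℝ, ContDiff ℝ ∞ φ → HasCompactSupport φ → ∀ v : V,
      ∫ x, f x * fderiv ℝ φ x v = - ∫ x, inner ℝ (g x) v * φ x

/-- For all radial `f` in `W^{1,1}(V)` the centered maximal function is in `W^{1,1}_loc(V)`, with
the endpoint gradient bound with constant `C`. -/
def RadialBound (V : Type) [NormedAddCommGroup V] [InnerProductSpace ℝ V] [MeasureSpace V]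
    (C : ℝ) : Prop :=
  ∀ (f : V → ℝ) (g : V → V), Integrable f → Integrable g → WeakGrad f g →
    (∃ F : ℝ → ℝ, ∀ᵐ x, f x = F ‖x‖) →
    (∀ᵐ x, maximalFn f x ≠ ⊤) ∧
      ∃ G : V → V, Integrable G ∧ WeakGrad (fun x => (maximalFn f x).toReal) G ∧
        ∫ x, ‖G x‖ ≤ C * ∫ x, ‖g x‖

end Vale.Agent.P137
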