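import Vale.Agent.P137.Statement

open MeasureTheory Metric
open scoped ENNReal ContDiff

namespace Vale.Agent.P137

/-- The uncentered maximal function: the supremum of the averages of `|f|` over all open balls
`B(y, r)` containing `x`, with values in `[0, ∞]`. -/
noncomputable def uncenteredFn {V : Type} [NormedAddCommGroup V] [MeasureSpace V]
    (f : V → ℝ) (x : V) : ℝ≥0∞ :=
  ⨆ (y : V) (r : ℝ) (_ : 0 < r) (_ : x ∈ ball y r), (∫⁻ z in ball y r, ‖f z‖ₑ) / volume (ball y r)

/-- For all `f` in `W^{1,1}(V)` the uncentered maximal function is in `W^{1,1}_loc(V)`, with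
the endpoint gradient bound with constant `C`. -/
def UncenteredBound (V : Type) [NormedAddCommGroup V] [InnerProductSpace ℝ V] [MeasureSpace V]
    (C : ℝ) : Prop :=
  ∀ (f : V → ℝ) (g : V → V), Integrable f → Integrable g → WeakGrad f g →
    (∀ᵐ x, uncenteredFn f x ≠ ⊤) ∧
      ∃ G : V → V, Integrable G ∧ WeakGrad (fun x => (uncenteredFn f x).toReal) G ∧
        ∫ x, ‖G x‖ ≤ C * ∫ x, ‖g x‖

end Vale.Agent.P137
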