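import Mathlib.Algebra.Order.Archimedean.Real.Hom
import Mathlib.Analysis.Calculus.BumpFunction.Convolution
import Mathlib.Analysis.Calculus.Gradient.Basic
import Mathlib.Analysis.Calculus.LineDeriv.IntegrationByParts
import Mathlib.Analysis.Calculus.Rademacher
import Mathlib.Analysis.SpecialFunctions.ImproperIntegrals
import Mathlib.Computability.Reduce
import Mathlib.Data.Int.Star
import Mathlib.Data.Pi.Interval
import Mathlib.MeasureTheory.Constructions.HaarToSphere
import Mathlib.MeasureTheory.Function.ContinuousMapDense
import Mathlib.MeasureTheory.Function.L2Space
import Mathlib.MeasureTheory.Function.SpecialFunctions.Inner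
import Mathlib.MeasureTheory.Integral.IntervalIntegral.AbsolutelyContinuousFun
import Mathlib.MeasureTheory.Integral.RieszMarkovKakutani.Real
import Mathlib.MeasureTheory.Measure.Decomposition.IntegralRNDeriv
import Mathlib.MeasureTheory.Measure.RegularityCompacts
import Mathlib.Order.CompletePartialOrder
import Mathlib.Tactic
import Mathlib.Topology.UniformSpace.Uniformizable

/-! The part of Mathlib that the development of this folder uses. -/
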